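import Vale.Agent.P255.Main

/-!
A closed three-manifold with a metric without conjugate points that carries no metric of
nonpositive sectional curvature.
-/

open scoped ContDiff

namespace Vale.Agent.Results.P255.NoNPC

open Vale.Agent.P255

theorem result : ∃ (M : Type) (_ : TopologicalSpace M) (_ : T2Space M) (_ : CompactSpace M)
    (_ : ConnectedSpace M) (_ : ChartedSpace E M) (_ : IsManifold (modelWithCornersSelf ℝ E) ∞ M),
    (∃ g : RMetric M, NoConj g) ∧ ¬ ∃ g : RMetric M, Nonpos g := main

end Vale.Agent.Results.P255.NoNPC
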